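import Vale.Agent.P231.WE2.Line
import Vale.Agent.P231.EN.Eqv
import Vale.Agent.P231.H775.Lift

/-!
# P231, block E2: the rotation field on the tangent space of a Blaschke manifold of cut
multiplicity `1`
-/

set_option maxSynthPendingDepth 3
set_option linter.unusedSectionVars false

open Bundle Manifold Set Filter Module
open scoped ContDiff Manifold Topology

namespace Vale.Agent.P231.WE2

open Vale.Agent.P234 Vale.Agent.P231 Vale.Agent.P231.H775

noncomputable section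

variable {E : Type*} [NormedAddCommGroup E] [NormedSpace ℝ E] [FiniteDimensional ℝ E]
  {M : Type*} [MetricSpace M] [ChartedSpace E M] [IsManifold 𝓘(ℝ, E) ∞ M]
  [RiemannianBundle (fun x : M => TangentSpace 𝓘(ℝ, E) x)]
  [IsContMDiffRiemannianBundle 𝓘(ℝ, E) ∞ E (fun x : M => TangentSpace 𝓘(ℝ, E) x)]
  {e : ∀ x : M, TangentSpace 𝓘(ℝ, E) x → M}

/-- vector fields along a constant map -/
theorem contDiffAt_of_smV {V : Type*} [NormedAddCommGroup V] [NormedSpace ℝ V] {p : M}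
    {u : V → TangentSpace 𝓘(ℝ, E) p} {s : V} (h : SmV (fun _ : V => p) u s) :
    ContDiffAt ℝ ∞ u s := by
  have h1 := ((smV_iff p (mem_extChartAt_source p)).1 h).2
  have h0 : ContDiff ℝ ∞ (fun ξ : E => (vec (E := E) p p ξ : TangentSpace 𝓘(ℝ, E) p)) :=
    (vec (E := E) p p).contDiff
  have h2 : ContDiffAt ℝ ∞ (fun s => vec (E := E) p p (crd p p (u s))) s :=
    ContDiffAt.comp (g := fun ξ : E => (vec (E := E) p p ξ : TangentSpace 𝓘(ℝ, E) p)) s
      h0.contDiffAt h1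
  refine h2.congr_of_eventuallyEq (Eventually.of_forall fun s => ?_)
  exact (vec_crd p (mem_extChartAt_source p) _).symm

/-- the direction of `u` -/
def hat {T : Type*} [NormedAddCommGroup T] [NormedSpace ℝ T] (u : T) : T := ‖u‖⁻¹ • u

theorem norm_hat {T : Type*} [NormedAddCommGroup T] [NormedSpace ℝ T] {u : T} (hu : u ≠ 0) :
    ‖hat u‖ = 1 := by
  rw [hat, norm_smul, norm_inv, norm_norm, inv_mul_cancel₀ (norm_ne_zero_iff.2 hu)]

theorem hat_unit {T : Type*} [NormedAddCommGroup T] [NormedSpace ℝ T] {u : T} (hu : ‖u‖ = 1) :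
    hat u = u := by
  rw [hat, hu, inv_one, one_smul]

theorem smul_hat {T : Type*} [NormedAddCommGroup T] [NormedSpace ℝ T] (u : T) :
    ‖u‖ • hat u = u := by
  by_cases hu : u = 0
  · simp [hu]
  · rw [hat, smul_smul, mul_inv_cancel₀ (norm_ne_zero_iff.2 hu), one_smul]

/-- the plane of minimal directions containing `u` -/
def Pp (e : ∀ x : M, TangentSpace 𝓘(ℝ, E) x → M) (D : ℝ) (p : M) (u : TangentSpace 𝓘(ℝ, E) p) :
    Submodule ℝ (TangentSpace 𝓘(ℝ, E) p) := Pl e D (e p (D • hat u)) p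

/-- the line of minimal directions orthogonal to `u` -/
def KK (e : ∀ x : M, TangentSpace 𝓘(ℝ, E) x → M) (D : ℝ) (p : M) (u : TangentSpace 𝓘(ℝ, E) p) :
    Submodule ℝ (TangentSpace 𝓘(ℝ, E) p) := (ℝ ∙ u)ᗮ ⊓ Pp e D p u

variable [CompactSpace M] [ConnectedSpace M] [IsRiemannianManifold 𝓘(ℝ, E) M]

section

variable (F : Facts e) {D : ℝ} (hD : 0 < D) (hB : InjGE e D)
    (hdiam : ∀ p q : M, dist p q ≤ D)

include F hD hB

theorem hat_mem_Lk {p : M} {u : TangentSpace 𝓘(ℝ, E) p} (hu : u ≠ 0) :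
    hat u ∈ Lk e D (e p (D • hat u)) p := ⟨norm_hat hu, rfl⟩

theorem dist_hat {p : M} {u : TangentSpace 𝓘(ℝ, E) p} (hu : u ≠ 0) :
    dist (e p (D • hat u)) p = D :=
  dist_of_Lk hD hB (hat_mem_Lk F hD hB hu)

theorem mem_Pp {p : M} {u : TangentSpace 𝓘(ℝ, E) p} (hu : u ≠ 0) : u ∈ Pp e D p u := by
  rw [← smul_hat u]
  refine Submodule.smul_mem _ _ ?_
  rw [smul_hat]
  exact Lk_subset_Pl D _ _ (hat_mem_Lk F hD hB hu)

include hdiam

/-- points of the plane have the same plane -/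
theorem Pp_eq {p : M} {u v : TangentSpace 𝓘(ℝ, E) p} (hu : u ≠ 0) (hv : v ≠ 0)
    (h : v ∈ Pp e D p u) : e p (D • hat v) = e p (D • hat u) := by
  have h1 : hat v ∈ Pl e D (e p (D • hat u)) p := Submodule.smul_mem _ _ h
  exact ((mem_Lk_iff F hD hB hdiam (dist_hat F hD hB hu)).2 ⟨norm_hat hv, h1⟩).2

variable (hP : ∀ x y : M, dist x y = D → finrank ℝ (Pl e D x y) = 2)

include hP

theorem finrank_KK {p : M} {u : TangentSpace 𝓘(ℝ, E) p} (hu : u ≠ 0) :
    finrank ℝ (KK e D p u) = 1 := by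
  have h2 := Submodule.finrank_add_inf_finrank_orthogonal (K₁ := ℝ ∙ u) (K₂ := Pp e D p u) (by
    rw [Submodule.span_singleton_le_iff_mem]
    exact mem_Pp F hD hB hu)
  rw [finrank_span_singleton hu] at h2
  have h3 : finrank ℝ (Pp e D p u) = 2 := hP _ _ (dist_hat F hD hB hu)
  rw [KK]
  omega

/-- smoothness of the line field -/
theorem LF_KK (p : M) : LF (KK e D p) where
  one := fun u hu => finrank_KK F hD hB hdiam hP hu
  hom := by
    intro t ht u
    have h1 : hat (t • u) = hat u := by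
      rw [hat, hat, norm_smul, Real.norm_of_nonneg ht.le, smul_smul, mul_inv, mul_assoc,
        mul_comm ‖u‖⁻¹ t, ← mul_assoc, inv_mul_cancel₀ ht.ne', one_mul]
    rw [KK, KK, Pp, Pp, h1, Submodule.span_singleton_smul_eq (isUnit_iff_ne_zero.2 ht.ne')]
  loc := by
    intro s₀ hs₀
    -- a unit vector of the line at `s₀`
    have h1 := finrank_KK F hD hB hdiam hP hs₀
    obtain ⟨w, hw0, -⟩ := finrank_eq_one_iff'.1 h1
    have hw1 : (w : TangentSpace 𝓘(ℝ, E) p) ≠ 0 := fun h => hw0 (Subtype.ext h)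
    let u₀ : TangentSpace 𝓘(ℝ, E) p := hat (w : TangentSpace 𝓘(ℝ, E) p)
    have hu1 : ‖u₀‖ = 1 := norm_hat hw1
    have hu2 : (inner ℝ s₀ u₀ : ℝ) = 0 := by
      have h2 : (w : TangentSpace 𝓘(ℝ, E) p) ∈ (ℝ ∙ s₀)ᗮ := w.2.1
      have h3 := Submodule.mem_orthogonal_singleton_iff_inner_right.1 h2
      change inner ℝ s₀ (‖(w : TangentSpace 𝓘(ℝ, E) p)‖⁻¹ • (w : TangentSpace 𝓘(ℝ, E) p)) = 0
      rw [inner_smul_right, h3, mul_zero]
    let g : TangentSpace 𝓘(ℝ, E) p → M := fun s => e p (D • hat s)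
    have hu3 : u₀ ∈ Lk e D (g s₀) p := by
      refine (mem_Lk_iff F hD hB hdiam (dist_hat F hD hB hs₀)).2 ⟨hu1, ?_⟩
      exact Submodule.smul_mem _ _ w.2.2
    have hne : ∀ᶠ s in 𝓝 s₀, s ≠ 0 := isOpen_compl_singleton.mem_nhds hs₀
    have hhat : ∀ s : TangentSpace 𝓘(ℝ, E) p, s ≠ 0 → ContDiffAt ℝ ∞
        (fun s : TangentSpace 𝓘(ℝ, E) p => hat s) s := fun s hs =>
      ((contDiffAt_norm ℝ hs).inv (norm_ne_zero_iff.2 hs)).smul contDiffAt_id
    have hg : ∀ᶠ s in 𝓝 s₀, ContMDiffAt 𝓘(ℝ, TangentSpace 𝓘(ℝ, E) p) 𝓘(ℝ, E) ∞ g s := by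
      filter_upwards [hne] with s hs
      have h4 : ContDiffAt ℝ ∞ (fun s : TangentSpace 𝓘(ℝ, E) p => D • hat s) s :=
        (hhat s hs).const_smul D
      exact ((contMDiff_exp_fiber F.isExp p).contMDiffAt).comp s h4.contMDiffAt
    have hfg : ∀ᶠ s in 𝓝 s₀, dist p (g s) = D := by
      filter_upwards [hne] with s hs
      rw [dist_comm]
      exact dist_hat F hD hB hs
    obtain ⟨u, hus, hu⟩ := exists_lift (V := TangentSpace 𝓘(ℝ, E) p) F hD hB hdiam (l := 1)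
      (f := fun _ => p) (g := g) hP (Eventually.of_forall fun s => contMDiffAt_const) hg hfg
      (u₀ := u₀) hu3
    let w' : TangentSpace 𝓘(ℝ, E) p → TangentSpace 𝓘(ℝ, E) p := fun s =>
      u s - (inner ℝ (hat s) (u s) : ℝ) • hat s
    have hsm : ContDiffAt ℝ ∞ w' s₀ := by
      have h5 : ContDiffAt ℝ ∞ u s₀ := contDiffAt_of_smV hu.self_of_nhds.1
      exact h5.sub (((hhat s₀ hs₀).inner ℝ h5).smul (hhat s₀ hs₀))
    refine ⟨w', hsm, ?_⟩
    have hw's : w' s₀ ≠ 0 := by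
      have h6 : w' s₀ = u₀ := by
        simp only [w', hus]
        have h7 : (inner ℝ (hat s₀) u₀ : ℝ) = 0 := by
          rw [hat, inner_smul_left, hu2, mul_zero]
        rw [h7, zero_smul, sub_zero]
      rw [h6, ← norm_ne_zero_iff, hu1]
      exact one_ne_zero
    filter_upwards [hsm.continuousAt.eventually (isOpen_compl_singleton.mem_nhds hw's), hu, hne]
      with s h8 h9 h10
    refine ⟨h8, ?_, ?_⟩
    · refine Submodule.mem_orthogonal_singleton_iff_inner_right.2 ?_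
      have h11 : (inner ℝ (hat s) (w' s) : ℝ) = 0 := by
        simp only [w']
        rw [inner_sub_right, inner_smul_right, real_inner_self_eq_norm_sq, norm_hat h10]
        ring
      rw [← smul_hat s, inner_smul_left, smul_hat, h11, mul_zero]
    · refine Submodule.sub_mem _ (Lk_subset_Pl D _ _ h9.2) (Submodule.smul_mem _ _ ?_)
      exact Lk_subset_Pl D _ _ (hat_mem_Lk F hD hB h10)

/-- the plane is spanned by `u` and a nonzero vector of the line -/
theorem Pp_le_span {p : M} {u w : TangentSpace 𝓘(ℝ, E) p} (hu : u ≠ 0) (hw : w ≠ 0)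
    (hwK : w ∈ KK e D p u) : Pp e D p u ≤ Submodule.span ℝ {u, w} := by
  intro x hx
  have h1 := finrank_KK F hD hB hdiam hP hu
  have hn : (‖u‖ ^ 2 : ℝ) ≠ 0 := pow_ne_zero 2 (norm_ne_zero_iff.2 hu)
  let y : TangentSpace 𝓘(ℝ, E) p := x - ((inner ℝ u x : ℝ) / ‖u‖ ^ 2) • u
  have hy : y ∈ KK e D p u := by
    refine ⟨?_, Submodule.sub_mem _ hx (Submodule.smul_mem _ _ (mem_Pp F hD hB hu))⟩
    refine Submodule.mem_orthogonal_singleton_iff_inner_right.2 ?_
    simp only [y]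
    rw [inner_sub_right, inner_smul_right, real_inner_self_eq_norm_sq, div_mul_cancel₀ _ hn,
      sub_self]
  rw [eq_span h1 hw hwK, Submodule.mem_span_singleton] at hy
  obtain ⟨c, hc⟩ := hy
  refine Submodule.mem_span_pair.2 ⟨(inner ℝ u x : ℝ) / ‖u‖ ^ 2, c, ?_⟩
  rw [hc]
  simp only [y]
  abel

/-- **the rotation field** on the tangent space at a point of a Blaschke manifold of cut
multiplicity one -/
theorem exists_J (hN : 3 ≤ finrank ℝ E) (p : M) :
    ∃ J : TangentSpace 𝓘(ℝ, E) p → TangentSpace 𝓘(ℝ, E) p,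
      (∀ u, u ≠ 0 → ContDiffAt ℝ ∞ J u) ∧ (∀ t : ℝ, 0 < t → ∀ u, J (t • u) = t • J u) ∧
      (∀ u, (inner ℝ (J u) u : ℝ) = 0) ∧ (∀ u, ‖J u‖ = ‖u‖) ∧
      (∀ u, ∀ c s : ℝ, c ^ 2 + s ^ 2 = 1 → J (c • u + s • J u) = -(s • u) + c • J u) ∧
      (∀ u, ‖u‖ = 1 → e p (D • J u) = e p (D • u)) ∧
      (∀ u, ‖u‖ = 1 → ∀ w, w ∈ Pl e D (e p (D • u)) p ↔ w ∈ Submodule.span ℝ {u, J u}) := by
  have hLF := LF_KK F hD hB hdiam hP p
  obtain ⟨J, hJ1, hJ2, hJ3, hJ4⟩ := hLF.exists_section hN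
  have hperp : ∀ u : TangentSpace 𝓘(ℝ, E) p, ∀ x ∈ KK e D p u, (inner ℝ u x : ℝ) = 0 :=
    fun u x hx => Submodule.mem_orthogonal_singleton_iff_inner_right.1 hx.1
  have hJ0 : ∀ u, u ≠ 0 → J u ≠ 0 := fun u hu => by
    rw [← norm_ne_zero_iff, hJ3, norm_ne_zero_iff]; exact hu
  have hspan : ∀ u, u ≠ 0 → Pp e D p u ≤ Submodule.span ℝ {u, J u} := fun u hu =>
    Pp_le_span F hD hB hdiam hP hu (hJ0 u hu) (hJ2 u)
  have hspan' : ∀ u, u ≠ 0 → Submodule.span ℝ {u, J u} ≤ Pp e D p u := by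
    intro u hu
    rw [Submodule.span_le]
    rintro x (rfl | rfl)
    · exact mem_Pp F hD hB hu
    · exact (hJ2 _).2
  refine ⟨J, hJ1, hJ4, fun u => ?_, hJ3, ?_, fun u hu => ?_, fun u hu w => ?_⟩
  · rw [real_inner_comm]
    exact hperp u _ (hJ2 u)
  · refine rot_of (fun u hu => (hJ1 u hu).continuousAt) hJ2 hJ3 hperp ?_
    intro u v hu hv hvs
    have h1 : v ∈ Pp e D p u := hspan' u hu hvs
    have h2 := Pp_eq F hD hB hdiam hu hv h1
    refine le_trans ?_ (hspan u hu)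
    intro x hx
    have h3 : x ∈ Pp e D p v := hx.2
    rw [Pp, h2] at h3
    exact h3
  · have hu0 : u ≠ 0 := by
      rw [← norm_ne_zero_iff, hu]; exact one_ne_zero
    have h1 := Pp_eq F hD hB hdiam hu0 (hJ0 u hu0) (hJ2 u).2
    rwa [hat_unit hu, hat_unit (by rw [hJ3, hu])] at h1
  · have hu0 : u ≠ 0 := by
      rw [← norm_ne_zero_iff, hu]; exact one_ne_zero
    have h1 : Pp e D p u = Pl e D (e p (D • u)) p := by rw [Pp, hat_unit hu]
    rw [← h1]
    exact ⟨fun h => hspan u hu0 h, fun h => hspan' u hu0 h⟩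

end

omit [CompactSpace M] [ConnectedSpace M] [IsRiemannianManifold 𝓘(ℝ, E) M] in
/-- the rotation field in the form used by block `EN` -/
theorem gc_of {p : M} {J : TangentSpace 𝓘(ℝ, E) p → TangentSpace 𝓘(ℝ, E) p}
    (h1 : ∀ u, u ≠ 0 → ContDiffAt ℝ ∞ J u) (h2 : ∀ t : ℝ, 0 < t → ∀ u, J (t • u) = t • J u)
    (h3 : ∀ u, ∀ c s : ℝ, c ^ 2 + s ^ 2 = 1 → J (c • u + s • J u) = -(s • u) + c • J u) :
    EN.GC J :=
  ⟨fun u hu => (h1 u hu).contDiffWithinAt, h2, h3⟩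

end

end Vale.Agent.P231.WE2
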