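import Mathlib

/-!
# P231, block E2: line fields on spheres are orientable

`K u` a line for every `u ≠ 0` in a Euclidean space of dimension at least `3`, depending smoothly
on `u` and homogeneous.  Then there is a smooth homogeneous section `J` with `‖J u‖ = ‖u‖`.
-/

set_option linter.unusedSectionVars false

open Module Set Filter
open scoped ContDiff Topology

noncomputable section

namespace Vale.Agent.P231.WE2

variable {T : Type*} [NormedAddCommGroup T] [InnerProductSpace ℝ T] [FiniteDimensional ℝ T]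

/-- projection onto the line spanned by `w` -/
def prj (w : T) : T →L[ℝ] T := (‖w‖ ^ 2)⁻¹ • (innerSL ℝ w).smulRight w

/-- a homogeneous smooth line field off the origin -/
structure LF (K : T → Submodule ℝ T) : Prop where
  one : ∀ u, u ≠ 0 → finrank ℝ (K u) = 1
  hom : ∀ t : ℝ, 0 < t → ∀ u, K (t • u) = K u
  loc : ∀ u, u ≠ 0 → ∃ w : T → T, ContDiffAt ℝ ∞ w u ∧ ∀ᶠ v in 𝓝 u, w v ≠ 0 ∧ w v ∈ K v

variable {K : T → Submodule ℝ T}

/-- the projection onto `K u` -/
def P (K : T → Submodule ℝ T) (u : T) : T →L[ℝ] T := (K u).starProjection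

theorem P_mem (u x : T) : P K u x ∈ K u := Submodule.starProjection_apply_mem _ _

theorem P_self {u x : T} (hx : x ∈ K u) : P K u x = x :=
  Submodule.starProjection_eq_self_iff.2 hx

theorem eq_span {L : Submodule ℝ T} (h1 : finrank ℝ L = 1) {w : T} (hw : w ≠ 0) (hwK : w ∈ L) :
    L = ℝ ∙ w := by
  refine (Submodule.eq_of_le_of_finrank_eq ?_ ?_).symm
  · rwa [Submodule.span_singleton_le_iff_mem]
  · rw [finrank_span_singleton hw, h1]

theorem starProjection_eq {L : Submodule ℝ T} {w : T} (hL : L = ℝ ∙ w) (x : T) :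
    L.starProjection x = prj w x := by
  subst hL
  rw [Submodule.starProjection_singleton]
  simp only [prj, smul_apply, ContinuousLinearMap.smulRight_apply,
    innerSL_apply_apply, smul_smul]
  congr 1
  rw [div_eq_inv_mul]
  rfl

theorem P_eq {u w : T} (h1 : finrank ℝ (K u) = 1) (hw : w ≠ 0) (hwK : w ∈ K u) :
    P K u = prj w := by
  ext x
  exact starProjection_eq (eq_span h1 hw hwK) x

theorem LF.contDiffAt (h : LF K) {u : T} (hu : u ≠ 0) : ContDiffAt ℝ ∞ (P K) u := by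
  obtain ⟨w, hw, hw'⟩ := h.loc u hu
  have h1 : ContDiffAt ℝ ∞ (fun v => prj (w v)) u := by
    have h2 : ContDiffAt ℝ ∞ (fun v => (‖w v‖ ^ 2)⁻¹) u :=
      (hw.norm_sq ℝ).inv (pow_ne_zero 2 (norm_ne_zero_iff.2 (hw'.self_of_nhds.1)))
    have h3 : ContDiffAt ℝ ∞ (fun v => (innerSL ℝ (w v)).smulRight (w v)) u :=
      ((innerSL ℝ).contDiff.contDiffAt.comp u hw).smulRight hw
    exact h2.smul h3
  refine h1.congr_of_eventuallyEq ?_
  filter_upwards [hw', isOpen_compl_singleton.mem_nhds (show u ∈ ({0}ᶜ : Set T) from hu)]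
    with v hv hv0
  exact P_eq (h.one v hv0) hv.1 hv.2

theorem LF.exists_delta (h : LF K) : ∃ δ > 0, ∀ x y : T, 1 / 2 ≤ ‖x‖ → ‖x‖ ≤ 1 → 1 / 2 ≤ ‖y‖ →
    ‖y‖ ≤ 1 → ‖x - y‖ < δ → ‖P K x - P K y‖ < 1 / 2 := by
  let A : Set T := {x | 1 / 2 ≤ ‖x‖ ∧ ‖x‖ ≤ 1}
  have hA : IsCompact A := by
    refine (isCompact_closedBall (0 : T) 1).of_isClosed_subset ?_ fun x hx => ?_
    · exact (isClosed_le continuous_const continuous_norm).inter
        (isClosed_le continuous_norm continuous_const)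
    · rw [mem_closedBall_zero_iff]; exact hx.2
  have hc : ContinuousOn (P K) A := fun x hx => by
    have hx0 : x ≠ 0 := by
      rintro rfl
      have := hx.1
      rw [norm_zero] at this
      norm_num at this
    exact (h.contDiffAt hx0).continuousAt.continuousWithinAt
  have hu := hA.uniformContinuousOn_of_continuous hc
  rw [Metric.uniformContinuousOn_iff] at hu
  obtain ⟨δ, hδ, h1⟩ := hu (1 / 2) (by norm_num)
  refine ⟨δ, hδ, fun x y hx hx' hy hy' hxy => ?_⟩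
  rw [← dist_eq_norm]
  exact h1 x ⟨hx, hx'⟩ y ⟨hy, hy'⟩ (by rwa [dist_eq_norm])

/-- the segment -/
def cc (u0 u : T) (s : ℝ) : T := (1 - s) • u0 + s • u

theorem norm_cc {u0 u : T} (h0 : ‖u0‖ = 1) (h1 : ‖u‖ = 1) (h : -(1 / 2) ≤ inner ℝ u0 u) {s : ℝ}
    (hs0 : 0 ≤ s) (hs1 : s ≤ 1) : 1 / 2 ≤ ‖cc u0 u s‖ ∧ ‖cc u0 u s‖ ≤ 1 := by
  have h2 : ‖cc u0 u s‖ ^ 2 = (1 - s) ^ 2 + 2 * (s * (1 - s)) * inner ℝ u0 u + s ^ 2 := by
    rw [cc, norm_add_sq_real, norm_smul, norm_smul, h0, h1, inner_smul_left, inner_smul_right]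
    simp only [mul_one, Real.norm_eq_abs, sq_abs, conj_trivial]
    ring
  have h3 : inner ℝ u0 u ≤ 1 := by
    have := real_inner_le_norm u0 u
    rwa [h0, h1, one_mul] at this
  have h4 : 0 ≤ s * (1 - s) := mul_nonneg hs0 (by linarith)
  have h5 := norm_nonneg (cc u0 u s)
  constructor
  · nlinarith [mul_le_mul_of_nonneg_left h h4, sq_nonneg (s - 1 / 2)]
  · nlinarith [mul_le_mul_of_nonneg_left h3 h4]

theorem cc_sub (u0 u : T) (s t : ℝ) : cc u0 u s - cc u0 u t = (s - t) • (u - u0) := by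
  simp only [cc]
  module

theorem contDiff_cc (u0 : T) (s : ℝ) : ContDiff ℝ ∞ (fun u => cc u0 u s) :=
  contDiff_const.add (contDiff_id.const_smul s)

/-- the chain of projections -/
def W (K : T → Submodule ℝ T) (u0 a0 : T) (k : ℕ) : ℕ → T → T
  | 0, _ => a0
  | i + 1, u => P K (cc u0 u (((i + 1 : ℕ) : ℝ) / k)) (W K u0 a0 k i u)

theorem cc_ne {u0 u : T} (h0 : ‖u0‖ = 1) (h1 : ‖u‖ = 1) (h : -(1 / 2) ≤ inner ℝ u0 u) {s : ℝ}
    (hs0 : 0 ≤ s) (hs1 : s ≤ 1) : cc u0 u s ≠ 0 := by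
  intro h2
  have := (norm_cc h0 h1 h hs0 hs1).1
  rw [h2, norm_zero] at this
  norm_num at this

theorem LF.contDiffAt_W (h : LF K) {u0 a0 u : T} (h0 : ‖u0‖ = 1) (h1 : ‖u‖ = 1)
    (hu : -(1 / 2) ≤ inner ℝ u0 u) {k : ℕ} (hk : 0 < k) {i : ℕ} (hi : i ≤ k) :
    ContDiffAt ℝ ∞ (W K u0 a0 k i) u := by
  induction i with
  | zero => exact contDiffAt_const
  | succ i ih =>
    have hk' : (0 : ℝ) < k := by exact_mod_cast hk
    have h2 : cc u0 u (((i + 1 : ℕ) : ℝ) / k) ≠ 0 := by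
      refine cc_ne h0 h1 hu (by positivity) ?_
      rw [div_le_one hk']
      exact_mod_cast hi
    have h3 : ContDiffAt ℝ ∞ (fun u => P K (cc u0 u (((i + 1 : ℕ) : ℝ) / k))) u :=
      ContDiffAt.comp (g := P K) u (h.contDiffAt h2) (contDiff_cc u0 _).contDiffAt
    exact h3.clm_apply (ih (by omega))

theorem W_mem {u0 a0 u : T} (h0 : ‖u0‖ = 1) (h1 : ‖u‖ = 1)
    (hu : -(1 / 2) ≤ inner ℝ u0 u) (ha : a0 ≠ 0) (haK : a0 ∈ K u0) {δ : ℝ}
    (hδ : ∀ x y : T, 1 / 2 ≤ ‖x‖ → ‖x‖ ≤ 1 → 1 / 2 ≤ ‖y‖ →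
      ‖y‖ ≤ 1 → ‖x - y‖ < δ → ‖P K x - P K y‖ < 1 / 2) {k : ℕ} (hk : 0 < k) (hk2 : 2 / (k : ℝ) < δ)
    {i : ℕ} (hi : i ≤ k) :
    W K u0 a0 k i u ≠ 0 ∧ W K u0 a0 k i u ∈ K (cc u0 u ((i : ℝ) / k)) := by
  have hk' : (0 : ℝ) < k := by exact_mod_cast hk
  induction i with
  | zero =>
    refine ⟨ha, ?_⟩
    have : cc u0 u (((0 : ℕ) : ℝ) / k) = u0 := by simp [cc]
    rw [this]
    exact haK
  | succ i ih =>
    obtain ⟨ih1, ih2⟩ := ih (by omega)
    have hi' : (((i + 1 : ℕ) : ℝ)) ≤ k := by exact_mod_cast hi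
    have hi'' : ((i : ℕ) : ℝ) ≤ k := by exact_mod_cast (by omega : i ≤ k)
    have n1 := norm_cc h0 h1 hu (s := (((i + 1 : ℕ) : ℝ)) / k) (by positivity)
      ((div_le_one hk').2 hi')
    have n2 := norm_cc h0 h1 hu (s := ((i : ℕ) : ℝ) / k) (by positivity)
      ((div_le_one hk').2 hi'')
    have hd : ‖cc u0 u ((((i + 1 : ℕ) : ℝ)) / k) - cc u0 u (((i : ℕ) : ℝ) / k)‖ < δ := by
      rw [cc_sub, norm_smul]
      have h3 : ‖u - u0‖ ≤ 2 := by
        refine (norm_sub_le _ _).trans ?_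
        rw [h0, h1]; norm_num
      have h4 : (((i + 1 : ℕ) : ℝ)) / k - ((i : ℕ) : ℝ) / k = 1 / k := by
        rw [← sub_div]; push_cast; ring
      rw [h4, Real.norm_of_nonneg (by positivity)]
      calc 1 / (k : ℝ) * ‖u - u0‖ ≤ 1 / k * 2 := by gcongr
        _ = 2 / k := by ring
        _ < δ := hk2
    have h5 := hδ _ _ n1.1 n1.2 n2.1 n2.2 hd
    refine ⟨?_, P_mem _ _⟩
    intro hz
    have h6 : W K u0 a0 k (i + 1) u - W K u0 a0 k i u
        = (P K (cc u0 u ((((i + 1 : ℕ) : ℝ)) / k)) - P K (cc u0 u (((i : ℕ) : ℝ) / k)))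
          (W K u0 a0 k i u) := by
      rw [sub_apply, P_self ih2]
      rfl
    rw [hz, zero_sub] at h6
    have h7 := ContinuousLinearMap.le_opNorm
      (P K (cc u0 u ((((i + 1 : ℕ) : ℝ)) / k)) - P K (cc u0 u (((i : ℕ) : ℝ) / k)))
      (W K u0 a0 k i u)
    rw [← h6, norm_neg] at h7
    have h8 : 0 < ‖W K u0 a0 k i u‖ := norm_pos_iff.2 ih1
    nlinarith

/-- sections over a large cone -/
theorem LF.exists_cone (h : LF K) {u0 : T} (h0 : ‖u0‖ = 1) : ∃ J : T → T,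
    (∀ u, u ≠ 0 → -(1 / 2) * ‖u‖ < inner ℝ u0 u → ContDiffAt ℝ ∞ J u ∧ J u ∈ K u ∧
      ‖J u‖ = ‖u‖) ∧ (∀ t : ℝ, 0 < t → ∀ u, J (t • u) = t • J u) := by
  have hu0 : u0 ≠ 0 := by
    rintro rfl
    rw [norm_zero] at h0
    exact zero_ne_one h0
  obtain ⟨w0, -, hw0⟩ := h.loc u0 hu0
  obtain ⟨ha, haK⟩ := hw0.self_of_nhds
  obtain ⟨δ, hδ, hδ'⟩ := h.exists_delta
  obtain ⟨k, hk⟩ := exists_nat_gt (2 / δ)
  have hk0 : 0 < k := by
    have : (0 : ℝ) < k := lt_trans (by positivity) hk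
    exact_mod_cast this
  have hk' : (0 : ℝ) < k := by exact_mod_cast hk0
  have hk2 : 2 / (k : ℝ) < δ := by
    rw [div_lt_iff₀ hk']
    rw [div_lt_iff₀ hδ] at hk
    linarith
  set a0 := w0 u0
  let j : T → T := fun u => ‖W K u0 a0 k k u‖⁻¹ • W K u0 a0 k k u
  have hj : ∀ u, ‖u‖ = 1 → -(1 / 2) ≤ inner ℝ u0 u → ContDiffAt ℝ ∞ j u ∧ j u ∈ K u ∧ ‖j u‖ = 1 := by
    intro u h1 hu
    have h2 := W_mem h0 h1 hu ha haK hδ' hk0 hk2 le_rfl
    have h3 : cc u0 u ((k : ℝ) / k) = u := by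
      rw [div_self hk'.ne']; simp [cc]
    rw [h3] at h2
    have h4 := h.contDiffAt_W (a0 := a0) h0 h1 hu hk0 le_rfl
    refine ⟨?_, Submodule.smul_mem _ _ h2.2, ?_⟩
    · exact ((h4.norm ℝ h2.1).inv (norm_ne_zero_iff.2 h2.1)).smul h4
    · simp only [j]
      rw [norm_smul, norm_inv, norm_norm, inv_mul_cancel₀ (norm_ne_zero_iff.2 h2.1)]
  refine ⟨fun u => ‖u‖ • j (‖u‖⁻¹ • u), fun u hu hin => ?_, fun t ht u => ?_⟩
  · have hn : 0 < ‖u‖ := norm_pos_iff.2 hu
    have h1 : ‖‖u‖⁻¹ • u‖ = 1 := by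
      rw [norm_smul, norm_inv, norm_norm, inv_mul_cancel₀ hn.ne']
    have h2 : -(1 / 2) ≤ inner ℝ u0 (‖u‖⁻¹ • u) := by
      rw [inner_smul_right]
      have h3 : -(1 / 2) * ‖u‖ ≤ inner ℝ u0 u := hin.le
      rw [inv_mul_eq_div, le_div_iff₀ hn]
      exact h3
    obtain ⟨j1, j2, j3⟩ := hj _ h1 h2
    refine ⟨?_, ?_, ?_⟩
    · have h4 : ContDiffAt ℝ ∞ (fun u : T => ‖u‖⁻¹ • u) u :=
        ((contDiffAt_norm ℝ hu).inv hn.ne').smul contDiffAt_id
      exact (contDiffAt_norm ℝ hu).smul (ContDiffAt.comp (g := j) u j1 h4)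
    · refine Submodule.smul_mem _ _ ?_
      rwa [h.hom _ (inv_pos.2 hn)] at j2
    · rw [norm_smul, norm_norm, j3, mul_one]
  · have h1 : ‖t • u‖⁻¹ • t • u = ‖u‖⁻¹ • u := by
      rw [norm_smul, Real.norm_of_nonneg ht.le, smul_smul, mul_inv, mul_assoc, mul_comm ‖u‖⁻¹ t,
        ← mul_assoc, inv_mul_cancel₀ ht.ne', one_mul]
    simp only [h1]
    rw [norm_smul, Real.norm_of_nonneg ht.le, mul_smul]

/-! ### gluing -/

/-- the overlap of the two cones -/
def Ov (u0 : T) : Set T := {u | 4 * (inner ℝ u0 u) ^ 2 < ‖u‖ ^ 2}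

theorem isPreconnected_Ov {u0 : T} (h0 : ‖u0‖ = 1) (hdim : 3 ≤ finrank ℝ T) :
    IsPreconnected (Ov u0) := by
  have hu0 : u0 ≠ 0 := by
    rintro rfl
    rw [norm_zero] at h0
    exact zero_ne_one h0
  let H : Submodule ℝ T := (ℝ ∙ u0)ᗮ
  have hf : 2 ≤ finrank ℝ H := by
    have h4 := Submodule.finrank_add_finrank_orthogonal (ℝ ∙ u0)
    rw [finrank_span_singleton hu0] at h4
    change 2 ≤ finrank ℝ ((ℝ ∙ u0)ᗮ : Submodule ℝ T)
    omega
  have hr : 1 < Module.rank ℝ H := by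
    rw [← finrank_eq_rank]
    exact_mod_cast hf
  have hc : IsPreconnected ({0}ᶜ : Set H) :=
    (isConnected_compl_singleton_of_one_lt_rank hr 0).isPreconnected
  let I : Set ℝ := {s | 3 * s ^ 2 < 1}
  have hI : IsPreconnected I := by
    have : I = Metric.ball 0 (Real.sqrt (1 / 3)) := by
      ext s
      rw [mem_ball_zero_iff, Real.norm_eq_abs, ← Real.sqrt_sq_eq_abs]
      rw [Real.sqrt_lt_sqrt_iff (sq_nonneg s)]
      change 3 * s ^ 2 < 1 ↔ _
      constructor <;> intro h <;> linarith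
    rw [this]
    exact (convex_ball 0 _).isPreconnected
  have him : Ov u0 = (fun q : H × ℝ => (q.1 : T) + (q.2 * ‖q.1‖) • u0) '' ({0}ᶜ ×ˢ I) := by
    have hnorm : ∀ (v : H) (c : ℝ), ‖(v : T) + c • u0‖ ^ 2 = ‖v‖ ^ 2 + c ^ 2 := by
      intro v c
      have hv : inner ℝ (v : T) u0 = 0 := by
        rw [real_inner_comm]
        exact Submodule.mem_orthogonal_singleton_iff_inner_right.1 v.2
      rw [norm_add_sq_real, inner_smul_right, hv, norm_smul, h0]
      simp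
    have hin : ∀ (v : H) (c : ℝ), inner ℝ u0 ((v : T) + c • u0) = c := by
      intro v c
      have hv : inner ℝ u0 (v : T) = 0 := Submodule.mem_orthogonal_singleton_iff_inner_right.1 v.2
      rw [inner_add_right, hv, inner_smul_right, real_inner_self_eq_norm_sq, h0]
      simp
    ext u
    constructor
    · intro hu
      let c : ℝ := inner ℝ u0 u
      have hv : u - c • u0 ∈ H := by
        refine Submodule.mem_orthogonal_singleton_iff_inner_right.2 ?_
        rw [inner_sub_right, inner_smul_right, real_inner_self_eq_norm_sq, h0]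
        simp [c]
      let v : H := ⟨u - c • u0, hv⟩
      have huv : u = (v : T) + c • u0 := by simp [v]
      have h1 : 4 * c ^ 2 < ‖v‖ ^ 2 + c ^ 2 := by
        have h2 : 4 * c ^ 2 < ‖u‖ ^ 2 := hu
        rwa [huv, hnorm] at h2
      have hv0 : 0 < ‖v‖ := by
        rw [norm_pos_iff]
        intro h3
        rw [h3, norm_zero] at h1
        nlinarith [sq_nonneg c]
      refine ⟨(v, c / ‖v‖), ⟨norm_pos_iff.1 hv0, ?_⟩, ?_⟩
      · change 3 * (c / ‖v‖) ^ 2 < 1
        rw [div_pow, mul_div_assoc', div_lt_one (by positivity)]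
        linarith
      · change (v : T) + (c / ‖v‖ * ‖v‖) • u0 = u
        rw [div_mul_cancel₀ _ hv0.ne', ← huv]
    · rintro ⟨⟨v, s⟩, ⟨hv, hs⟩, rfl⟩
      change 4 * (inner ℝ u0 ((v : T) + (s * ‖v‖) • u0)) ^ 2 < ‖(v : T) + (s * ‖v‖) • u0‖ ^ 2
      rw [hin, hnorm]
      have hv0 : 0 < ‖v‖ := norm_pos_iff.2 hv
      have hs' : 3 * s ^ 2 < 1 := hs
      have : 3 * (s * ‖v‖) ^ 2 < ‖v‖ ^ 2 := by
        rw [mul_pow, ← mul_assoc]
        nlinarith [pow_pos hv0 2]
      linarith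
  rw [him]
  refine (hc.prod hI).image _ ?_
  refine Continuous.continuousOn ?_
  exact (continuous_subtype_val.comp continuous_fst).add
    ((continuous_snd.mul (continuous_norm.comp continuous_fst)).smul continuous_const)

/-- **smooth line fields on spheres of dimension `≥ 2` have smooth unit sections** -/
theorem LF.exists_section (h : LF K) (hdim : 3 ≤ finrank ℝ T) : ∃ J : T → T,
    (∀ u, u ≠ 0 → ContDiffAt ℝ ∞ J u) ∧ (∀ u, J u ∈ K u) ∧ (∀ u, ‖J u‖ = ‖u‖) ∧
      (∀ t : ℝ, 0 < t → ∀ u, J (t • u) = t • J u) := by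
  have hT : Nontrivial T := by
    rw [← finrank_pos_iff (R := ℝ)]
    omega
  obtain ⟨u1, hu1⟩ := exists_ne (0 : T)
  obtain ⟨u0, h0⟩ : ∃ u0 : T, ‖u0‖ = 1 := ⟨‖u1‖⁻¹ • u1, by
    rw [norm_smul, norm_inv, norm_norm, inv_mul_cancel₀ (norm_ne_zero_iff.2 hu1)]⟩
  have h0' : ‖-u0‖ = 1 := by rw [norm_neg, h0]
  obtain ⟨J1, hJ1, hh1⟩ := h.exists_cone h0
  obtain ⟨J2, hJ2, hh2⟩ := h.exists_cone h0'
  have hOv : ∀ u ∈ Ov u0, u ≠ 0 ∧ -(1 / 2) * ‖u‖ < inner ℝ u0 u ∧
      -(1 / 2) * ‖u‖ < inner ℝ (-u0) u := by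
    intro u hu
    have h1 : 4 * (inner ℝ u0 u) ^ 2 < ‖u‖ ^ 2 := hu
    have h2 : u ≠ 0 := by
      rintro rfl
      rw [norm_zero] at h1
      nlinarith [sq_nonneg (inner ℝ u0 (0 : T) : ℝ)]
    have h3 : |2 * inner ℝ u0 u| < ‖u‖ := by
      refine abs_lt_of_sq_lt_sq ?_ (norm_nonneg u)
      rw [mul_pow]; norm_num; exact h1
    rw [abs_lt] at h3
    refine ⟨h2, by linarith [h3.1], ?_⟩
    rw [inner_neg_left]
    linarith [h3.2]
  -- the two sections differ by a sign on the overlap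
  obtain ⟨ε, hε, hεJ⟩ : ∃ ε : ℝ, ε ^ 2 = 1 ∧ ∀ u ∈ Ov u0, J1 u = ε • J2 u := by
    have hpt : ∀ u ∈ Ov u0, J1 u = J2 u ∨ J1 u = -J2 u := by
      intro u hu
      obtain ⟨h1, h2, h3⟩ := hOv u hu
      obtain ⟨-, a2, a3⟩ := hJ1 u h1 h2
      obtain ⟨-, b2, b3⟩ := hJ2 u h1 h3
      have hb : J2 u ≠ 0 := by
        rw [← norm_ne_zero_iff, b3, norm_ne_zero_iff]; exact h1
      have h4 := eq_span (h.one u h1) hb b2
      rw [h4, Submodule.mem_span_singleton] at a2
      obtain ⟨c, hc⟩ := a2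
      have h5 : |c| = 1 := by
        have h6 : ‖c • J2 u‖ = ‖u‖ := by rw [hc, a3]
        rw [norm_smul, b3, Real.norm_eq_abs] at h6
        exact mul_right_cancel₀ (norm_ne_zero_iff.2 h1) (h6.trans (one_mul _).symm)
      rcases (abs_eq zero_le_one).1 h5 with h6 | h6
      · left; rw [← hc, h6, one_smul]
      · right; rw [← hc, h6, neg_one_smul]
    have hcont : ContinuousOn (fun u => inner ℝ (J1 u) (J2 u)) (Ov u0) := fun u hu => by
      obtain ⟨h1, h2, h3⟩ := hOv u hu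
      exact ((hJ1 u h1 h2).1.continuousAt.inner (𝕜 := ℝ)
        (hJ2 u h1 h3).1.continuousAt).continuousWithinAt
    have hne : ∀ u ∈ Ov u0, (inner ℝ (J1 u) (J2 u) : ℝ) ≠ 0 := by
      intro u hu
      obtain ⟨h1, h2, h3⟩ := hOv u hu
      have hb : J2 u ≠ 0 := by
        rw [← norm_ne_zero_iff, (hJ2 u h1 h3).2.2, norm_ne_zero_iff]; exact h1
      rcases hpt u hu with h4 | h4
      · rw [h4, real_inner_self_eq_norm_sq]; positivity
      · rw [h4, inner_neg_left, real_inner_self_eq_norm_sq, neg_ne_zero]; positivity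
    have hpre := isPreconnected_Ov h0 hdim
    by_cases hpos : ∃ u ∈ Ov u0, 0 < (inner ℝ (J1 u) (J2 u) : ℝ)
    · obtain ⟨p, hp, hp'⟩ := hpos
      refine ⟨1, one_pow 2, fun u hu => ?_⟩
      rw [one_smul]
      rcases hpt u hu with h4 | h4
      · exact h4
      · exfalso
        have h5 : (inner ℝ (J1 u) (J2 u) : ℝ) ≤ 0 := by
          rw [h4, inner_neg_left, real_inner_self_eq_norm_sq]
          nlinarith [sq_nonneg ‖J2 u‖]
        obtain ⟨q, hq, hq'⟩ := hpre.intermediate_value hu hp hcont ⟨h5, hp'.le⟩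
        exact hne q hq hq'
    · push Not at hpos
      refine ⟨-1, by norm_num, fun u hu => ?_⟩
      rw [neg_one_smul]
      rcases hpt u hu with h4 | h4
      · exfalso
        have h5 := hpos u hu
        have h6 := hne u hu
        rw [h4, real_inner_self_eq_norm_sq] at h5 h6
        exact h6 (le_antisymm h5 (sq_nonneg _))
      · exact h4
  have hε1 : |ε| = 1 := by
    rw [← sq_eq_sq₀ (abs_nonneg ε) zero_le_one, sq_abs, hε, one_pow]
  classical
  let J : T → T := fun u => if 0 < (inner ℝ u0 u : ℝ) then J1 u else ε • J2 u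
  -- local descriptions
  have hA : ∀ u, u ≠ 0 → -(1 / 2) * ‖u‖ < inner ℝ u0 u → J u = J1 u := by
    intro u hu h1
    by_cases h2 : 0 < (inner ℝ u0 u : ℝ)
    · exact if_pos h2
    · have h3 : J u = ε • J2 u := if_neg h2
      rw [h3]
      refine (hεJ u ?_).symm
      change 4 * (inner ℝ u0 u) ^ 2 < ‖u‖ ^ 2
      push Not at h2
      nlinarith [norm_nonneg u]
  have hB : ∀ u, u ≠ 0 → -(1 / 2) * ‖u‖ < inner ℝ (-u0) u → J u = ε • J2 u := by
    intro u hu h1
    by_cases h2 : 0 < (inner ℝ u0 u : ℝ)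
    · have h3 : J u = J1 u := if_pos h2
      rw [h3]
      refine hεJ u ?_
      change 4 * (inner ℝ u0 u) ^ 2 < ‖u‖ ^ 2
      rw [inner_neg_left] at h1
      nlinarith [norm_nonneg u]
    · exact if_neg h2
  have hopen : ∀ v : T, IsOpen {u : T | u ≠ 0 ∧ -(1 / 2) * ‖u‖ < inner ℝ v u} := fun v =>
    isOpen_compl_singleton.inter
      (isOpen_lt (continuous_const.mul continuous_norm) (continuous_const.inner continuous_id))
  have hcov : ∀ u, u ≠ 0 → -(1 / 2) * ‖u‖ < inner ℝ u0 u ∨ -(1 / 2) * ‖u‖ < inner ℝ (-u0) u := by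
    intro u hu
    have hn : 0 < ‖u‖ := norm_pos_iff.2 hu
    rcases lt_or_ge (-(1 / 2) * ‖u‖) (inner ℝ u0 u) with h1 | h1
    · exact Or.inl h1
    · right
      rw [inner_neg_left]
      linarith
  refine ⟨J, fun u hu => ?_, fun u => ?_, fun u => ?_, fun t ht u => ?_⟩
  · rcases hcov u hu with h1 | h1
    · refine (hJ1 u hu h1).1.congr_of_eventuallyEq ?_
      filter_upwards [(hopen u0).mem_nhds ⟨hu, h1⟩] with v hv using hA v hv.1 hv.2
    · refine ((hJ2 u hu h1).1.const_smul ε).congr_of_eventuallyEq ?_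
      filter_upwards [(hopen (-u0)).mem_nhds ⟨hu, h1⟩] with v hv using hB v hv.1 hv.2
  · by_cases hu : u = 0
    · subst hu
      have h3 : J 0 = ε • J2 0 := if_neg (by rw [inner_zero_right]; exact lt_irrefl _)
      have h4 : J2 0 = 0 := by
        have := hh2 2 (by norm_num) 0
        rw [smul_zero, two_smul] at this
        exact left_eq_add.1 this
      rw [h3, h4, smul_zero]
      exact Submodule.zero_mem _
    · rcases hcov u hu with h1 | h1
      · rw [hA u hu h1]; exact (hJ1 u hu h1).2.1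
      · rw [hB u hu h1]; exact Submodule.smul_mem _ _ (hJ2 u hu h1).2.1
  · by_cases hu : u = 0
    · subst hu
      have h3 : J 0 = ε • J2 0 := if_neg (by rw [inner_zero_right]; exact lt_irrefl _)
      have h4 : J2 0 = 0 := by
        have := hh2 2 (by norm_num) 0
        rw [smul_zero, two_smul] at this
        exact left_eq_add.1 this
      rw [h3, h4, smul_zero]
    · rcases hcov u hu with h1 | h1
      · rw [hA u hu h1]; exact (hJ1 u hu h1).2.2
      · rw [hB u hu h1, norm_smul, (hJ2 u hu h1).2.2, Real.norm_eq_abs, hε1, one_mul]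
  · simp only [J]
    rw [inner_smul_right]
    by_cases h2 : 0 < (inner ℝ u0 u : ℝ)
    · rw [if_pos h2, if_pos (mul_pos ht h2), hh1 t ht]
    · have h3 : ¬ 0 < t * (inner ℝ u0 u : ℝ) := fun h4 => h2 (pos_of_mul_pos_right h4 ht.le)
      rw [if_neg h2, if_neg h3, hh2 t ht, smul_comm]

/-- the section rotates the planes spanned by `u` and `J u` -/
theorem rot_of {J : T → T} (hJ1 : ∀ u, u ≠ 0 → ContinuousAt J u) (hJ2 : ∀ u, J u ∈ K u)
    (hJ3 : ∀ u, ‖J u‖ = ‖u‖) (hperp : ∀ u, ∀ x ∈ K u, (inner ℝ u x : ℝ) = 0)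
    (hpl : ∀ u v, u ≠ 0 → v ≠ 0 → v ∈ Submodule.span ℝ {u, J u} →
      K v ≤ Submodule.span ℝ {u, J u})
    (u : T) (c s : ℝ) (h : c ^ 2 + s ^ 2 = 1) : J (c • u + s • J u) = -(s • u) + c • J u := by
  by_cases hu : u = 0
  · subst hu
    have h0 : J 0 = 0 := by
      rw [← norm_eq_zero, hJ3, norm_zero]
    simp [h0]
  have hn : 0 < ‖u‖ := norm_pos_iff.2 hu
  have huJ : (inner ℝ u (J u) : ℝ) = 0 := hperp u _ (hJ2 u)
  have hJu : (inner ℝ (J u) u : ℝ) = 0 := by rw [real_inner_comm]; exact huJ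
  -- the vectors on the circle
  have hv : ∀ c s : ℝ, c ^ 2 + s ^ 2 = 1 → ‖c • u + s • J u‖ = ‖u‖ := by
    intro c s h
    have h1 : ‖c • u + s • J u‖ ^ 2 = ‖u‖ ^ 2 := by
      rw [norm_add_sq_real, inner_smul_left, inner_smul_right, huJ, norm_smul, norm_smul, hJ3,
        mul_pow, mul_pow, Real.norm_eq_abs, Real.norm_eq_abs, sq_abs, sq_abs]
      simp only [mul_zero, add_zero]
      rw [← add_mul, h, one_mul]
    exact (sq_eq_sq₀ (norm_nonneg _) (norm_nonneg _)).1 h1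
  have key : ∀ c s : ℝ, c ^ 2 + s ^ 2 = 1 → ∃ l : ℝ, l ^ 2 = 1 ∧
      J (c • u + s • J u) = l • (-(s • u) + c • J u) := by
    intro c s h
    set v := c • u + s • J u with hvdef
    have hvn := hv c s h
    have hv0 : v ≠ 0 := by
      rw [← norm_ne_zero_iff, hvn]; exact hn.ne'
    have hvs : v ∈ Submodule.span ℝ {u, J u} :=
      Submodule.mem_span_pair.2 ⟨c, s, rfl⟩
    obtain ⟨a, b, hab⟩ := Submodule.mem_span_pair.1 (hpl u v hu hv0 hvs (hJ2 v))
    have h1 : (inner ℝ v (J v) : ℝ) = 0 := hperp v _ (hJ2 v)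
    rw [← hab, hvdef, inner_add_left, inner_add_right, inner_add_right, inner_smul_left,
      inner_smul_left, inner_smul_left, inner_smul_left, inner_smul_right, inner_smul_right,
      inner_smul_right, inner_smul_right, huJ, hJu, real_inner_self_eq_norm_sq,
      real_inner_self_eq_norm_sq, hJ3] at h1
    simp only [conj_trivial, mul_zero, add_zero, zero_add] at h1
    have h2 : a * c + b * s = 0 := by
      have h3 : (a * c + b * s) * ‖u‖ ^ 2 = 0 := by linarith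
      exact (mul_eq_zero.1 h3).resolve_right (by positivity)
    refine ⟨b * c - a * s, ?_, ?_⟩
    · have h4 : ‖a • u + b • J u‖ ^ 2 = (a ^ 2 + b ^ 2) * ‖u‖ ^ 2 := by
        rw [norm_add_sq_real, inner_smul_left, inner_smul_right, huJ, norm_smul, norm_smul, hJ3,
          mul_pow, mul_pow, Real.norm_eq_abs, Real.norm_eq_abs, sq_abs, sq_abs]
        simp only [mul_zero, add_zero]
        ring
      rw [hab, hJ3, hvn] at h4
      have h5 : a ^ 2 + b ^ 2 = 1 := by
        have h6 : (a ^ 2 + b ^ 2 - 1) * ‖u‖ ^ 2 = 0 := by linarith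
        have := (mul_eq_zero.1 h6).resolve_right (by positivity)
        linarith
      have h7 : (b * c - a * s) ^ 2 = (a ^ 2 + b ^ 2) * (c ^ 2 + s ^ 2) - (a * c + b * s) ^ 2 := by
        ring
      rw [h7, h5, h, h2]; ring
    · have ha : (b * c - a * s) * (-s) = a := by linear_combination a * h - c * h2
      have hb : (b * c - a * s) * c = b := by linear_combination b * h - s * h2
      have hJv : J v = ((b * c - a * s) * (-s)) • u + ((b * c - a * s) * c) • J u := by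
        rw [ha, hb, hab]
      rw [hJv]
      module
  -- the sign
  obtain ⟨θ, hθc, hθs⟩ : ∃ θ : ℝ, c = Real.cos θ ∧ s = Real.sin θ := by
    let z : ℂ := ⟨c, s⟩
    have hz : ‖z‖ = 1 := by
      have h1 : ‖z‖ ^ 2 = 1 := by
        rw [← Complex.normSq_eq_norm_sq, Complex.normSq_apply]
        change c * c + s * s = 1
        nlinarith
      have h2 : ‖z‖ ^ 2 = 1 ^ 2 := by rw [h1, one_pow]
      exact (sq_eq_sq₀ (norm_nonneg _) zero_le_one).1 h2
    refine ⟨Complex.arg z, ?_, ?_⟩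
    · have := Complex.norm_mul_cos_arg z
      rw [hz, one_mul] at this
      exact this.symm
    · have := Complex.norm_mul_sin_arg z
      rw [hz, one_mul] at this
      exact this.symm
  let f : ℝ → ℝ := fun t => inner ℝ (J (Real.cos t • u + Real.sin t • J u))
    (-(Real.sin t • u) + Real.cos t • J u)
  have hcs : ∀ t : ℝ, Real.cos t ^ 2 + Real.sin t ^ 2 = 1 := fun t => by
    rw [add_comm]; exact Real.sin_sq_add_cos_sq t
  have hw : ∀ t : ℝ, ‖-(Real.sin t • u) + Real.cos t • J u‖ ^ 2 = ‖u‖ ^ 2 := by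
    intro t
    rw [← neg_smul, hv _ _ (by rw [neg_sq, add_comm]; exact hcs t)]
  have hfv : ∀ t l : ℝ, J (Real.cos t • u + Real.sin t • J u)
      = l • (-(Real.sin t • u) + Real.cos t • J u) → f t = l * ‖u‖ ^ 2 := by
    intro t l hl
    change inner ℝ (J (Real.cos t • u + Real.sin t • J u)) _ = _
    rw [hl, inner_smul_left, real_inner_self_eq_norm_sq, hw]
    rfl
  have hf0 : ∀ t, f t ≠ 0 := by
    intro t
    obtain ⟨l, hl, hl'⟩ := key _ _ (hcs t)
    rw [hfv t l hl']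
    refine mul_ne_zero ?_ (by positivity)
    rintro rfl
    norm_num at hl
  have hfc : Continuous f := by
    have h1 : Continuous fun t : ℝ => Real.cos t • u + Real.sin t • J u := by fun_prop
    have h2 : Continuous fun t : ℝ => J (Real.cos t • u + Real.sin t • J u) := by
      refine continuous_iff_continuousAt.2 fun t => ?_
      refine ContinuousAt.comp (g := J) (hJ1 _ ?_) h1.continuousAt
      rw [← norm_ne_zero_iff, hv _ _ (hcs t)]
      exact hn.ne'
    exact h2.inner (by fun_prop)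
  have hf1 : 0 < f 0 := by
    have : f 0 = ‖u‖ ^ 2 := by
      simp only [f, Real.cos_zero, Real.sin_zero, one_smul, zero_smul, add_zero, neg_zero,
        zero_add]
      rw [real_inner_self_eq_norm_sq, hJ3]
    rw [this]; positivity
  have hfpos : 0 < f θ := by
    by_contra hneg
    push Not at hneg
    obtain ⟨q, -, hq⟩ := (isPreconnected_univ (α := ℝ)).intermediate_value (mem_univ θ)
      (mem_univ 0) hfc.continuousOn ⟨hneg, hf1.le⟩
    exact hf0 q hq
  obtain ⟨l, hl, hl'⟩ := key c s h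
  rw [hθc, hθs] at hl'
  rw [hfv θ l hl'] at hfpos
  have hlpos : 0 < l := by
    by_contra h9
    push Not at h9
    nlinarith [pow_pos hn 2]
  have hl1 : l = 1 := by nlinarith
  rw [hθc, hθs, hl', hl1, one_smul]

end Vale.Agent.P231.WE2
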